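import Vale.Agent.P181.H564.All
import Vale.Agent.P181.H622U.MergeC
import Vale.Agent.P181.GN.H457.All
import Vale.Agent.P181.HO.H207.All
import Vale.Agent.P181.FD.H422.MostC
import Vale.Agent.P181.H382.H622.All
import Vale.Agent.P181.H382.H388.RhoCAll

set_option autoImplicit false

universe u

open Vale.Agent.P181 Vale.Agent.P181.H280

namespace Vale.Agent.Results.P181.FoulkesNearLinear

/-- **Foulkes' conjecture for all pairs `(a, b)` with `b ≥ K a (1 + log a) ^ 140000`**,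
`K = (2 * 10 ^ 12) ^ 20000`, and its inequality for many shapes for all pairs `a ≤ b`. Below
`w = λ_2 + λ_3 + ⋯`, `D = λ_3 + λ_4 + ⋯` and `l = λ_2`.

* For the pairs above and every finite-dimensional complex vector space `V` there is an injective
  linear map `Sym^a(Sym^b V) → Sym^b(Sym^a V)` commuting with the maps induced by all linear maps
  `V → V`, and (F): the multiplicity of `S_λ(ℂ^n)` in `Sym^a(Sym^b ℂ^n)` is at most its
  multiplicity in `Sym^b(Sym^a ℂ^n)`, for all `n` and all `λ`.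
* There are `C` and `c` such that, with `P = C (1 + log a) ^ c`, (F) holds for all `a ≤ b`, all `n`
  and all `λ` with one of: `w ≤ b`; `w < 2 a`; `w = 2 a` and `b ≥ a + 2`; `D ≤ b - a + 1`;
  `P w ≤ b ^ 2`; `P max(b, l) ≤ b (b - a)`; `P b ^ 2 ≤ (b - a) ∑ i, min(b, λ_i)`;
  `b > a` and `C b log(2 b / (b - a)) ≤ (b - a) log(w D / b ^ 3)`.
* There is `C` such that (F) holds for all `b ≥ C a`, all `n` and all `λ` with
  `D l ≥ C a ^ 3`.
* There are `C` and `c` such that, for all `b ≥ a + C (1 + log a) ^ c`, (F) with `n = a` fails for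
  at most a share `e ^ (-a / 4)` of the partitions of `a b` with at most `a` parts. -/
theorem result :
    (∀ a b : ℕ, (2 * 10 ^ 12 : ℝ) ^ 20000 * a * (1 + Real.log a) ^ 140000 ≤ b →
      H530.FoulkesInjection.{u} a b ∧
        ∀ (n : ℕ) (lam : Fin n → ℕ), plethMult a b n lam ≤ plethMult b a n lam) ∧
    (∃ (C : ℝ) (c : ℕ), ∀ a b : ℕ, a ≤ b →
      ∀ (n : ℕ) (lam : Fin n → ℕ) (P : ℝ) (w D l : ℕ), P = C * (1 + Real.log a) ^ c →
        w = (∑ i : Fin n, if 1 ≤ (i : ℕ) then lam i else 0) →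
        D = (∑ i : Fin n, if 2 ≤ (i : ℕ) then lam i else 0) →
        l = (if h : 1 < n then lam ⟨1, h⟩ else 0) →
        (w ≤ b ∨ w < 2 * a ∨ (w = 2 * a ∧ a + 2 ≤ b) ∨ D + a ≤ b + 1 ∨
          P * w ≤ (b : ℝ) ^ 2 ∨ P * max (b : ℝ) l ≤ b * ((b : ℝ) - a) ∨
          P * (b : ℝ) ^ 2 ≤ ((b : ℝ) - a) * ∑ i, ((min b (lam i) : ℕ) : ℝ) ∨
          (a < b ∧ C * b * Real.log (2 * b / ((b : ℝ) - a)) ≤
            ((b : ℝ) - a) * Real.log ((w : ℝ) * D / (b : ℝ) ^ 3))) →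
        plethMult a b n lam ≤ plethMult b a n lam) ∧
    (∃ C : ℝ, ∀ a b : ℕ, C * (a : ℝ) ≤ b → ∀ (n : ℕ) (lam : Fin n → ℕ) (D l : ℕ),
      D = (∑ i : Fin n, if 2 ≤ (i : ℕ) then lam i else 0) →
      l = (if h : 1 < n then lam ⟨1, h⟩ else 0) → C * (a : ℝ) ^ 3 ≤ (D : ℝ) * l →
      plethMult a b n lam ≤ plethMult b a n lam) ∧
    (∃ (C : ℝ) (c : ℕ), ∀ a b : ℕ, (a : ℝ) + C * (1 + Real.log a) ^ c ≤ b →
      ({lam : Fin a → ℕ | Antitone lam ∧ ∑ i, lam i = a * b ∧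
          ¬ plethMult a b a lam ≤ plethMult b a a lam}.ncard : ℝ) ≤
        Real.exp (-(a : ℝ) / 4) *
          ({lam : Fin a → ℕ | Antitone lam ∧ ∑ i, lam i = a * b}.ncard : ℝ)) := by
  refine ⟨H564.poly_all, ?_, ?_, ?_⟩
  · obtain ⟨C, c, -, h⟩ := H622U.mainC GN.H457.uniAllc HO.uniYc FD.fatLog H382.H622.rhoU
    refine ⟨C, c, fun a b hab n lam P w D l hP hw hD hl h1 => ?_⟩
    subst hP hw hD hl
    refine h a b hab n lam ?_
    rcases h1 with h1 | h1 | h1 | h1 | h1 | h1 | h1 | h1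
    · exact Or.inl (Or.inl h1)
    · exact Or.inl (Or.inr (Or.inl ⟨le_of_lt h1, Or.inl h1⟩))
    · exact Or.inl (Or.inr (Or.inl ⟨le_of_eq h1.1, Or.inr h1.2⟩))
    · refine Or.inl (Or.inr (Or.inr (Or.inl ?_)))
      unfold PL.dn
      omega
    · exact Or.inl (Or.inr (Or.inr (Or.inr (Or.inl h1))))
    · exact Or.inl (Or.inr (Or.inr (Or.inr (Or.inr (Or.inl h1)))))
    · exact Or.inl (Or.inr (Or.inr (Or.inr (Or.inr (Or.inr h1)))))
    · exact Or.inr h1
  · obtain ⟨C, -, h⟩ := H382.H388.rhoC_closed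
    refine ⟨C, fun a b hab n lam D l hD hl h1 => h a b hab n lam ?_⟩
    subst hD hl
    rw [mul_comm (T4.ex lam 1 : ℝ)]
    exact h1
  · obtain ⟨C, c, -, h⟩ := FD.mostAll
    exact ⟨C, c, h⟩

end Vale.Agent.Results.P181.FoulkesNearLinear
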