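import Vale.Agent.P181.H241.Near
import Vale.Agent.P181.TQ.Reduce
import Vale.Agent.P181.H983.TallGap

set_option autoImplicit false

open Vale.Agent.P181.H280

namespace Vale.Agent.Results.P181.PowerMapNearTall

/-- **Foulkes' inequality for tall partitions.** `F(a, b)` is the inequality
`mult_λ Sym^a(Sym^b ℂ^n) ≤ mult_λ Sym^b(Sym^a ℂ^n)`.
(1) All `b = q a + k ≥ a ≥ 3` (`0 ≤ k < a`), first `a` entries of `λ` at least `h`: `F(a, b)` holds
if `h ≥ b - a + 2`; or `h ≥ b - a + 1`, `a + b` odd and (`a` even or `b = a + 1` or `b ≥ 2 a`); or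
`h ≥ a + k + 2 q`; or `q ≥ 2`, `1 ≤ k ≤ a - 4`, `h ≥ max (k + 4, k + 2 q - 1) - (k mod 2)` and one
of: `q ≥ 3`, `2 k + 3 ≤ a`, `a + k` even, some `λ_i < b - a` (`i ≤ a`).
(2) Full columns: for even `c ≥ a ≥ 3`, `F(a, b)` for `λ` implies `F(a, b + c)` for `λ + (c^a)`.
(3) Reduction to `λ_a ≤ a`: if, for all `b ≥ a`, `F(a, b)` holds for all `λ ∈ ℕ^n` with `λ_i ≤ a` for
some `i ≤ a`, then, for all `b ≥ a`, it holds for all `λ ∈ ℕ^n` (`n ≥ a ≥ 3`).
(4) `b = 2a`: for `a ≥ 4` and `V = ℂ^n`, `n ≥ a - 1`, there is one linear map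
`Ψ : Sym^a(Sym^{2a} V) → Sym^{2a}(Sym^a V)` which commutes with all linear endomorphisms of `V`
and is injective on the highest weight vectors of weight `λ`, for every partition `λ` whose first
`a - 1` parts are at least `2`; and for these `λ` the multiplicities satisfy the inequality. -/
theorem result :
    (∀ (a b q k h n : ℕ) (lam : Fin n → ℕ), 3 ≤ a → b = q * a + k → 1 ≤ q → k < a → a ≤ n →
      (∀ i : Fin n, (i : ℕ) < a → h ≤ lam i) →
      (b + 2 ≤ h + a ∨
        (b + 1 ≤ h + a ∧ Odd (a + b) ∧ (Even a ∨ b = a + 1 ∨ 2 * a ≤ b)) ∨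
        a + k + 2 * q ≤ h ∨
        (2 ≤ q ∧ 1 ≤ k ∧ k + 4 ≤ a ∧ k + 4 ≤ h + k % 2 ∧ k + 2 * q ≤ h + 1 + k % 2 ∧
          (3 ≤ q ∨ 2 * k + 3 ≤ a ∨ Even (a + k) ∨
            ∃ i : Fin n, (i : ℕ) < a ∧ lam i + a < b))) →
      plethMult a b n lam ≤ plethMult b a n lam) ∧
    (∀ (a b c n : ℕ) (lam : Fin n → ℕ), 3 ≤ a → a ≤ n → Even c → a ≤ c →
      plethMult a b n lam ≤ plethMult b a n lam →
      plethMult a (b + c) n (fun i => lam i + if (i : ℕ) < a then c else 0) ≤
        plethMult (b + c) a n (fun i => lam i + if (i : ℕ) < a then c else 0)) ∧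
    (∀ a n : ℕ, 3 ≤ a → a ≤ n →
      (∀ (b : ℕ) (lam : Fin n → ℕ), a ≤ b → (∃ i : Fin n, (i : ℕ) < a ∧ lam i ≤ a) →
        plethMult a b n lam ≤ plethMult b a n lam) →
      ∀ (b : ℕ) (lam : Fin n → ℕ), a ≤ b → plethMult a b n lam ≤ plethMult b a n lam) ∧
    ∀ a n : ℕ, 4 ≤ a → a ≤ n + 1 →
      ∃ Ψ : Pleth a (2 * a) n →ₗ[ℂ] Pleth (2 * a) a n, IsEquivariant Ψ ∧
        ∀ lam : Fin n → ℕ, Antitone lam → (∀ i : Fin n, (i : ℕ) < a - 1 → 2 ≤ lam i) →
          InjOnHW Ψ lam ∧ plethMult a (2 * a) n lam ≤ plethMult (2 * a) a n lam := by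
  refine ⟨fun a b q k h n lam ha hb hq hka han hh hcase => ?_,
    fun a b c n lam ha han hc hac hF => Vale.Agent.P181.TQ.col_add ha han hc hac lam hF,
    fun a n ha han H => Vale.Agent.P181.TQ.reduce a n ha han H,
    fun a n ha han => ⟨powMap a 2 (Fin n → ℂ),
    fun g x => LinearMap.congr_fun (powMap_equivariant a 2 (Matrix.toLin' g)) x,
    fun lam hlam h =>
      ⟨fun x hx h0 => Vale.Agent.P181.H241.near ha han lam hlam (Or.inl h) x hx h0,
        finrank_le_of_inj (powMap a 2 (Fin n → ℂ)) _ _ (fun x hx => powMap_hwSpace lam x hx)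
          (fun x hx h0 => Vale.Agent.P181.H241.near ha han lam hlam (Or.inl h) x hx h0)⟩⟩⟩
  have hdm : b / a = q ∧ b % a = k := by
    rw [Nat.div_mod_unique (by omega), hb]
    exact ⟨by rw [mul_comm a q, add_comm], hka⟩
  have hqa : 1 * a ≤ q * a := Nat.mul_le_mul_right a hq
  rcases hcase with h1 | ⟨h1, h2, h3⟩ | h1 | ⟨h1, h2, h3, h4, h5, h6⟩
  · refine Vale.Agent.P181.H605.tall a b n ha (by omega) han lam fun i hi => ?_
    have := hh i hi
    omega
  · refine Vale.Agent.P181.H983.tall_oneE a b n ha (by omega) han h2 h3 lam fun i hi => ?_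
    have := hh i hi
    omega
  · refine Vale.Agent.P181.TQ.tallG a b n ha (by omega) han lam fun i hi => ?_
    rw [hdm.1, hdm.2]
    exact h1.trans (hh i hi)
  · have hqa2 : 2 * a ≤ q * a := Nat.mul_le_mul_right a h1
    have hlo : ∀ i : Fin n, (i : ℕ) < a → k + 4 ≤ lam i + k % 2 ∧
        k + 2 * q ≤ lam i + 1 + k % 2 := by
      intro i hi
      have := hh i hi
      omega
    have main : (2 * k + 3 ≤ a ∨ Even (a + k) ∨ (Odd a ∧ 3 * a ≤ b) ∨
        ∃ i : Fin n, (i : ℕ) < a ∧ lam i + a < b) →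
        plethMult a b n lam ≤ plethMult b a n lam := by
      intro h
      refine Vale.Agent.P181.TQ.tallF a b n ha (by omega) han lam ?_ ?_ ?_ ?_
      · rw [hdm.2]
        exact h2
      · rw [hdm.2]
        exact Or.inl h3
      · rw [hdm.1, hdm.2]
        exact hlo
      · rw [hdm.2]
        exact h
    rcases h6 with h6 | h6 | h6 | h6
    · by_cases hgap : ∃ i : Fin n, (i : ℕ) < a ∧ lam i + a < b
      · exact main (Or.inr (Or.inr (Or.inr hgap)))
      · by_cases h7 : 2 * k + 3 ≤ a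
        · exact main (Or.inl h7)
        · refine Vale.Agent.P181.TQ.tallG a b n ha (by omega) han lam fun i hi => ?_
          rw [hdm.1, hdm.2]
          have h8 : b ≤ lam i + a := not_lt.1 fun h => hgap ⟨i, hi, h⟩
          have h9 : (q - 2) * 6 ≤ (q - 2) * a := Nat.mul_le_mul_left _ (by omega)
          have h10 : (q - 2) * a + 2 * a = q * a := by
            rw [← Nat.add_mul]
            congr 1
            omega
          omega
    · exact main (Or.inl h6)
    · exact main (Or.inr (Or.inl h6))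
    · exact main (Or.inr (Or.inr (Or.inr h6)))

end Vale.Agent.Results.P181.PowerMapNearTall
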