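import Vale.Agent.P181.H168.Final

set_option autoImplicit false

open Vale.Agent.P181 Vale.Agent.P181.H280

namespace Vale.Agent.Results.P181.StableStrengthened

/-- `lam` and `mu` (weights of `GL_(n+1)`) have sizes `M` and `N` and the same rows below the
first row. -/
def SameTail {n : ℕ} (M N : ℕ) (lam mu : Fin (n + 1) → ℕ) : Prop :=
  ∑ i, lam i = M ∧ ∑ i, mu i = N ∧ ∀ i : Fin n, mu i.succ = lam i.succ

/-- The boxes below row two. -/
def belowTwo {n : ℕ} (lam : Fin (n + 1) → ℕ) : ℕ :=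
  ∑ i : Fin n, if (i : ℕ) = 0 then 0 else lam i.succ

/-- The boxes below row one, those of row two counted twice: `2 λ_2 + λ_3 + λ_4 + ⋯`. -/
def rowTwoTwice {n : ℕ} (lam : Fin (n + 1) → ℕ) : ℕ :=
  ∑ i : Fin n, if (i : ℕ) = 0 then 2 * lam i.succ else lam i.succ

lemma eq_pad {n N : ℕ} {lam : Fin (n + 1) → ℕ} (h : ∑ i, lam i = N) :
    lam = H777.pad N (fun i : Fin n => lam i.succ) := by
  funext i
  refine Fin.cases ?_ (fun i => ?_) i
  · rw [H777.pad_zero]
    rw [Fin.sum_univ_succ] at h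
    omega
  · rfl

lemma left_eq {n M N : ℕ} {lam mu : Fin (n + 1) → ℕ} (h : SameTail M N lam mu) :
    lam = H777.pad M (fun i : Fin n => lam i.succ) := eq_pad h.1

lemma right_eq {n M N : ℕ} {lam mu : Fin (n + 1) → ℕ} (h : SameTail M N lam mu) :
    mu = H777.pad N (fun i : Fin n => lam i.succ) := by
  have h1 := eq_pad h.2.1
  rw [h1]
  congr 1
  funext i
  exact h.2.2 i

/-- **The strengthened Foulkes inequality in the stable ranges.** Write `M(a, b; λ)` for the
multiplicity of `S_λ V` in `Sym^a(Sym^b V)`, `V = ℂ^(n+1)`; let `λ` and `μ` have the sizes `ab`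
and `cd` and the same rows below the first (so `μ = λ` if `ab = cd`).
(1) `M(a, b; λ) ≤ M(c, d; μ)` if `a ≤ d` and `2 λ_2 + λ_3 + λ_4 + ⋯ ≤ 2 c + 1`.
(2) `M(a, b; λ) ≤ M(c, d; μ)` if `a ≤ c`, `a ≤ d`, `λ` is a partition, and `λ_2 ≤ d`, or
`λ_2 ≤ c` and `λ_3 + λ_4 + ⋯ ≤ c - a + 1`, or `λ_2 ≤ c` and `(a - 1)^2 ≤ c`.
(3) Monotonicity: `M(a, b; λ) ≤ M(c, d; μ)` if `a ≤ c` and `b ≤ d`.
(4) Stability: equality in (3) if moreover `a = c` or `2 λ_2 + λ_3 + λ_4 + ⋯ ≤ 2 a + 1`, and
`b = d` or all rows of `λ` but the first have length at most `b`. -/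
theorem result (a b c d n : ℕ) (lam mu : Fin (n + 1) → ℕ)
    (h : SameTail (a * b) (c * d) lam mu) :
    (a ≤ d → rowTwoTwice lam ≤ 2 * c + 1 →
      plethMult a b (n + 1) lam ≤ plethMult c d (n + 1) mu) ∧
    (a ≤ c → a ≤ d → Antitone lam →
      ((∀ i : Fin n, lam i.succ ≤ d) ∨
        ((∀ i : Fin n, lam i.succ ≤ c) ∧ (belowTwo lam + a ≤ c + 1 ∨ (a - 1) ^ 2 ≤ c))) →
      plethMult a b (n + 1) lam ≤ plethMult c d (n + 1) mu) ∧
    (a ≤ c → b ≤ d → plethMult a b (n + 1) lam ≤ plethMult c d (n + 1) mu) ∧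
    (a ≤ c → b ≤ d → (a = c ∨ rowTwoTwice lam ≤ 2 * a + 1) →
      (b = d ∨ ∀ i : Fin n, lam i.succ ≤ b) →
      plethMult a b (n + 1) lam = plethMult c d (n + 1) mu) := by
  set α : Fin n → ℕ := fun i => lam i.succ with hα
  have h0 : rowTwoTwice lam = H168.twice α := rfl
  have h1 : plethMult a b (n + 1) lam = H777.F a b α := by
    rw [H777.F, ← left_eq h]
  have h2 : plethMult c d (n + 1) mu = H777.F c d α := by
    rw [H777.F, ← right_eq h]
  rw [h0, h1, h2]
  refine ⟨fun had ht => H168.F_main a b c d had α ht, fun hac had hanti hcond => ?_,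
    fun hac hbd => ?_, fun hac hbd ho hi => ?_⟩
  · have hα' : Antitone α := fun i j hij => hanti (Fin.succ_le_succ_iff.2 hij)
    rcases hcond with h3 | ⟨h3, h4 | h4⟩
    · exact H777.F_le_of_row hac α h3
    · exact H777.F_le_of_foulkes had α h3 (H777.F_foulkes_few' hac α hα' h4)
    · exact H777.F_le_of_foulkes had α h3 (H777.F_foulkes_canonical h4 α)
  · exact (H777.F_inner_mono a hbd α).trans (H777.F_outer_mono hac d α)
  · have h3 : H777.F a b α = H777.F a d α := by
      rcases hi with rfl | hi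
      · rfl
      · exact (H777.F_inner_stab a hbd α hi).symm
    have h4 : H777.F a d α = H777.F c d α := by
      rcases ho with rfl | ho
      · rfl
      · exact le_antisymm (H777.F_outer_mono hac d α) (H168.F_stab hac d α ho)
    exact h3.trans h4

end Vale.Agent.Results.P181.StableStrengthened
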