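import Vale.Agent.P181.H867.TopG
import Vale.Agent.P181.H984.Kernel

set_option autoImplicit false

open Vale.Agent.P181 Vale.Agent.P181.H280

namespace Vale.Agent.Results.P181.ThirdRowAtMostTwo

/-- `lam` and `mu` (weights of `GL_(n+1)`) have sizes `M` and `N` and the same rows below the
first row. -/
def SameTail {n : ℕ} (M N : ℕ) (lam mu : Fin (n + 1) → ℕ) : Prop :=
  ∑ i, lam i = M ∧ ∑ i, mu i = N ∧ ∀ i : Fin n, mu i.succ = lam i.succ

lemma eq_pad {n N : ℕ} {lam : Fin (n + 1) → ℕ} (h : ∑ i, lam i = N) :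
    lam = H777.pad N (fun i : Fin n => lam i.succ) := by
  funext i
  refine Fin.cases ?_ (fun i => ?_) i
  · rw [H777.pad_zero]
    rw [Fin.sum_univ_succ] at h
    omega
  · rfl

/-- **Foulkes' conjecture for partitions with third row at most two.** Write `M(a, b; λ)` for the
multiplicity of `S_λ V` in `Sym^a(Sym^b V)`.
(1) Let `a ≤ c`, `2 ≤ c`, `2 ≤ q` and `V = ℂ^n`. One linear map
`Ψ : Sym^a(Sym^{qc} V) → Sym^{qa}(Sym^c V)`, commuting with all matrices, is injective on the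
highest weight vectors of every weight `λ` with `λ_3 ≤ 2`, and `M(a, qc; λ) ≤ M(qa, c; λ)`.
(2) The strengthened Foulkes inequality: if `a ≤ d`, `2 ≤ d`, `2 ≤ q`, `qa ≤ c`, `λ` has size `ab`,
`μ` has size `cd` and the same rows below the first (so `μ = λ` if `ab = cd`), `λ_3 ≤ 2` and
all rows but the first have length at most `qd`, then `M(a, b; λ) ≤ M(c, d; μ)`.
(3) Foulkes' inequality: if `2 ≤ a`, `2 ≤ q`, `qa ≤ b`, `λ_3 ≤ 2` and either `b = qa` or all rows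
of `λ` but the first have length at most `qa`, then `M(a, b; λ) ≤ M(b, a; λ)`. -/
theorem result :
    (∀ a c q n : ℕ, a ≤ c → 2 ≤ c → 2 ≤ q →
      ∃ Ψ : Pleth a (q * c) n →ₗ[ℂ] Pleth (q * a) c n,
        (∀ g x, Ψ (plethAct a (q * c) n g x) = plethAct (q * a) c n g (Ψ x)) ∧
        ∀ lam : Fin n → ℕ, (∀ i : Fin n, (i : ℕ) = 2 → lam i ≤ 2) →
          (∀ x ∈ hwSpace lam (plethAct a (q * c) n), Ψ x = 0 → x = 0) ∧
          plethMult a (q * c) n lam ≤ plethMult (q * a) c n lam) ∧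
    (∀ (a b c d q n : ℕ) (lam mu : Fin (n + 1) → ℕ), a ≤ d → 2 ≤ d → 2 ≤ q → q * a ≤ c →
      SameTail (a * b) (c * d) lam mu → (∀ i : Fin (n + 1), (i : ℕ) = 2 → lam i ≤ 2) →
      (∀ i : Fin n, lam i.succ ≤ q * d) →
      plethMult a b (n + 1) lam ≤ plethMult c d (n + 1) mu) ∧
    (∀ (a b q n : ℕ) (lam : Fin (n + 1) → ℕ), 2 ≤ a → 2 ≤ q → q * a ≤ b →
      (∀ i : Fin (n + 1), (i : ℕ) = 2 → lam i ≤ 2) →
      (b = q * a ∨ ∀ i : Fin n, lam i.succ ≤ q * a) →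
      plethMult a b (n + 1) lam ≤ plethMult b a (n + 1) lam) := by
  have hK : ∀ d c q : ℕ, d ≤ c → 2 ≤ c → 2 ≤ q → H867.KernelG d c q :=
    fun d c q hdc hc hq A _ _ x0 x1 Z F hs hP hV P hPm =>
      H984.kernel_gen d c q hdc hc hq A x0 x1 Z F hs hP hV P hPm
  have h1 : ∀ a c q n : ℕ, a ≤ c → 2 ≤ c → 2 ≤ q →
      ∃ Ψ : Pleth a (q * c) n →ₗ[ℂ] Pleth (q * a) c n,
        (∀ g x, Ψ (plethAct a (q * c) n g x) = plethAct (q * a) c n g (Ψ x)) ∧
        ∀ lam : Fin n → ℕ, (∀ i : Fin n, (i : ℕ) = 2 → lam i ≤ 2) →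
          (∀ x ∈ hwSpace lam (plethAct a (q * c) n), Ψ x = 0 → x = 0) ∧
          plethMult a (q * c) n lam ≤ plethMult (q * a) c n lam :=
    fun a c q n hac hc hq => H867.topG_of a q c n (hK a c q hac hc hq) (by nlinarith)
  have h2 : ∀ (a b c d q n : ℕ) (lam mu : Fin (n + 1) → ℕ), a ≤ d → 2 ≤ d → 2 ≤ q → q * a ≤ c →
      SameTail (a * b) (c * d) lam mu → (∀ i : Fin (n + 1), (i : ℕ) = 2 → lam i ≤ 2) →
      (∀ i : Fin n, lam i.succ ≤ q * d) →
      plethMult a b (n + 1) lam ≤ plethMult c d (n + 1) mu := by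
    intro a b c d q n lam mu had hd hq hc hT h3 h4
    have h5 := H867.F_le_of_kernel (b := b) (hK a d q had hd hq) hd hq hc
      (fun i : Fin n => lam i.succ) h4 (fun i hi => h3 i.succ (by rw [Fin.val_succ, hi]))
    rw [H777.F, H777.F, ← eq_pad hT.1] at h5
    have h6 : mu = H777.pad (c * d) (fun i : Fin n => lam i.succ) := by
      rw [eq_pad hT.2.1]
      congr 1
      funext i
      exact hT.2.2 i
    rw [← h6] at h5
    exact h5
  refine ⟨h1, h2, ?_⟩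
  intro a b q n lam ha hq hb h3 h4
  rcases h4 with rfl | h4
  · obtain ⟨Ψ, -, hΨ⟩ := h1 a a q (n + 1) le_rfl ha hq
    exact (hΨ lam h3).2
  · by_cases hs : ∑ i, lam i = a * b
    · exact h2 a b b a q n lam lam le_rfl ha hq hb ⟨hs, by rw [hs, mul_comm], fun _ => rfl⟩ h3 h4
    · rw [H777.plethMult_eq_zero_of_sum a b lam hs]
      exact Nat.zero_le _

end Vale.Agent.Results.P181.ThirdRowAtMostTwo
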